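import Vale.Agent.Lib.P060.Dense

namespace Vale.Agent.Results.P060.DenseChromatic

open SimpleGraph Vale.Agent.Lib.P060

/-- **Hadwiger's conjecture for very dense graphs (chromatic form).**  Let `G` be a graph on `n`
vertices in which every vertex has at most `d` non-neighbours.  If `χ(G) ≤ n - 2 d ^ 2 - 1`
(i.e. `G` is `s`-colourable with `s + 2 d ^ 2 + 1 ≤ n`), then `χ(G) ≤ t ≤ h(G)` for some `t`. -/
theorem result {V : Type*} [Fintype V] (G : SimpleGraph V) (d s : ℕ)
    (hdeg : ∀ v : V, {w : V | w ≠ v ∧ ¬ G.Adj v w}.ncard ≤ d)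
    (hs : G.Colorable s) (hn : s + 2 * d ^ 2 + 1 ≤ Fintype.card V) :
    ∃ t : ℕ, G.Colorable t ∧ HasCompleteMinor G t := by
  classical
  have hdeg' : ∀ v : V, (Finset.univ.filter fun w => w ≠ v ∧ ¬ G.Adj v w).card ≤ d := by
    intro v
    have := hdeg v
    rwa [Set.ncard_eq_toFinset_card', Set.toFinset_ofPred] at this
  obtain ⟨κ, hκ, g, -, h2, h3, h4⟩ :=
    exists_maximal G _ (Fin 0) (fun p => p.1.elim0) (fun p => p.1.elim0) (fun i => i.elim0) rfl
  refine core G d hdeg' ?_ g h2 h3 h4
  -- the unmatched vertices form a clique, hence there are at most `s` of them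
  let U : Finset V := Finset.univ \ Finset.univ.image g
  have hU : G.IsClique (U : Set V) := by
    intro u hu u' hu' huu'
    apply h4 u u' _ _ huu'
    · simpa [U] using hu
    · simpa [U] using hu'
  have h5 : U.card ≤ s := hU.card_le_of_colorable hs
  have h6 : U.card = Fintype.card V - 2 * Fintype.card κ := by
    simp only [U]
    rw [Finset.card_sdiff_of_subset (Finset.subset_univ _), Finset.card_image_of_injective _ h2]
    simp [Fintype.card_prod, mul_comm]
  omega

end Vale.Agent.Results.P060.DenseChromatic
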