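import Vale.Agent.Lib.P060.Dense

namespace Vale.Agent.Results.P060.DenseComplement

open SimpleGraph Vale.Agent.Lib.P060

/-- **Hadwiger's conjecture for very dense graphs (matching form).**  Let `G` be a finite graph in
which every vertex has at most `d` non-neighbours, and suppose that the complement of `G` has a
matching with `m ≥ d ^ 2 + 1` edges `{a i, b i}`.  Then `χ(G) ≤ t ≤ h(G)` for some `t`. -/
theorem result {V : Type*} [Fintype V] (G : SimpleGraph V) (d m : ℕ)
    (hdeg : ∀ v : V, {w : V | w ≠ v ∧ ¬ G.Adj v w}.ncard ≤ d)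
    (hm : d ^ 2 + 1 ≤ m)
    (a b : Fin m → V) (hinj : Function.Injective (Sum.elim a b))
    (hab : ∀ i, ¬ G.Adj (a i) (b i)) :
    ∃ t : ℕ, G.Colorable t ∧ HasCompleteMinor G t := by
  classical
  have hdeg' : ∀ v : V, (Finset.univ.filter fun w => w ≠ v ∧ ¬ G.Adj v w).card ≤ d := by
    intro v
    have := hdeg v
    rwa [Set.ncard_eq_toFinset_card', Set.toFinset_ofPred] at this
  let f : Fin m × Bool → V := fun p => if p.2 then b p.1 else a p.1
  have hf : Function.Injective f := by
    rintro ⟨i, _ | _⟩ ⟨j, _ | _⟩ h
    · have : Sum.elim a b (Sum.inl i) = Sum.elim a b (Sum.inl j) := by simpa [f] using h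
      have := hinj this
      simp_all
    · have : Sum.elim a b (Sum.inl i) = Sum.elim a b (Sum.inr j) := by simpa [f] using h
      have := hinj this
      simp_all
    · have : Sum.elim a b (Sum.inr i) = Sum.elim a b (Sum.inl j) := by simpa [f] using h
      have := hinj this
      simp_all
    · have : Sum.elim a b (Sum.inr i) = Sum.elim a b (Sum.inr j) := by simpa [f] using h
      have := hinj this
      simp_all
  obtain ⟨κ, hκ, g, h1, h2, h3, h4⟩ :=
    exists_maximal G _ (Fin m) f hf (fun i => by simpa [f] using hab i) rfl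
  exact core G d hdeg' (by simp at h1; omega) g h2 h3 h4

end Vale.Agent.Results.P060.DenseComplement
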